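import Vale.Agent.P272.CT.Weak

/-!
# SP: Cauchy transforms of functions with a singularity of order `1/2` at the origin
-/

open scoped ContDiff Topology
open Set MeasureTheory Filter Metric Asymptotics
open Vale.Agent.P272

noncomputable section

namespace Vale.Agent.P247.H74.SP

set_option linter.unusedSectionVars false

variable {E : Type*} [NormedAddCommGroup E] [NormedSpace ℂ E]

theorem intk {s : ℝ} (h1 : 1 ≤ s) (h2 : s < 2) (z : ℂ) :
    IntegrableOn (fun w : ℂ => ‖z - w‖ ^ (-s)) (ball (0 : ℂ) 1) := by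
  have := CT.integrableOn_kernel (le_refl (0 : ℝ)) h1 (by linarith) z
  simpa using this

theorem intk_le {s : ℝ} (h1 : 1 ≤ s) (h2 : s < 2) (z : ℂ) :
    ∫ w in ball (0 : ℂ) 1, ‖z - w‖ ^ (-s) ≤ CT.cst 0 s := by
  have := CT.integral_kernel_le (le_refl (0 : ℝ)) h1 (by linarith) z
  simpa using this

/-- a singularity of order `1/2` at the origin -/
def SB (A : ℝ) (F : ℂ → E) : Prop :=
  AEStronglyMeasurable F (volume.restrict (ball (0 : ℂ) 1)) ∧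
    ∀ w ∈ ball (0 : ℂ) 1, w ≠ 0 → ‖F w‖ ≤ A * ‖w‖ ^ (-(1 / 2) : ℝ)

theorem ae_ne (x : ℂ) : ∀ᵐ w : ℂ ∂(volume.restrict (ball (0 : ℂ) 1)), w ≠ x := by
  refine ae_restrict_of_ae ?_
  rw [ae_iff]; simp

namespace SB

variable {A : ℝ} {F : ℂ → E}

theorem nonneg (hF : SB A F) : 0 ≤ A := by
  have h := hF.2 (1 / 2 : ℂ) (by simp; norm_num) (by norm_num)
  have h1 : 0 < ‖(1 / 2 : ℂ)‖ ^ (-(1 / 2) : ℝ) := Real.rpow_pos_of_pos (by norm_num) _
  by_contra hA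
  push Not at hA
  have := mul_neg_of_neg_of_pos hA h1
  linarith [norm_nonneg (F (1 / 2))]

theorem ker_bound (hF : SB A F) (z : ℂ) {t : ℝ} (ht : 0 ≤ t) {w : ℂ} (hw : w ∈ ball (0 : ℂ) 1)
    (hw0 : w ≠ 0) (hwz : w ≠ z) :
    ‖z - w‖ ^ (-t) * ‖F w‖ ≤ A * (‖(0 : ℂ) - w‖ ^ (-(1 / 2 + t)) + ‖z - w‖ ^ (-(1 / 2 + t))) := by
  have h1 := CT.rpow_split (x := ‖w‖) (y := ‖z - w‖) (norm_pos_iff.2 hw0)
    (norm_pos_iff.2 (sub_ne_zero.2 hwz.symm)) (by norm_num : (0 : ℝ) ≤ 1 / 2) ht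
  have h2 := hF.2 w hw hw0
  have h3 : ‖(0 : ℂ) - w‖ = ‖w‖ := by rw [zero_sub, norm_neg]
  rw [h3]
  calc ‖z - w‖ ^ (-t) * ‖F w‖ ≤ ‖z - w‖ ^ (-t) * (A * ‖w‖ ^ (-(1 / 2) : ℝ)) := by
        gcongr
    _ = A * (‖w‖ ^ (-(1 / 2) : ℝ) * ‖z - w‖ ^ (-t)) := by ring
    _ ≤ _ := by
        have := hF.nonneg
        gcongr

theorem integrableOn_ker (hF : SB A F) (z : ℂ) :
    IntegrableOn (fun w => (z - w)⁻¹ • F w) (ball (0 : ℂ) 1) := by
  have h1 := ((intk (s := 3 / 2) (by norm_num) (by norm_num) 0).add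
    (intk (s := 3 / 2) (by norm_num) (by norm_num) z)).const_mul A
  refine Integrable.mono' h1 ?_ ?_
  · refine AEStronglyMeasurable.smul ?_ hF.1
    exact (by fun_prop : Measurable (fun w : ℂ => (z - w)⁻¹)).aestronglyMeasurable
  · filter_upwards [ae_restrict_mem measurableSet_ball, ae_ne 0, ae_ne z] with w hw hw0 hwz
    have h2 := hF.ker_bound z zero_le_one hw hw0 hwz
    rw [norm_smul, norm_inv, ← Real.rpow_neg_one]
    refine h2.trans (le_of_eq ?_)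
    norm_num

theorem integrableOn (hF : SB A F) : IntegrableOn F (ball (0 : ℂ) 1) := by
  have h1 := (intk (s := 1) (by norm_num) (by norm_num) 0).const_mul A
  refine Integrable.mono' h1 hF.1 ?_
  filter_upwards [ae_restrict_mem measurableSet_ball, ae_ne 0] with w hw hw0
  refine (hF.2 w hw hw0).trans ?_
  have hA := hF.nonneg
  have h3 : ‖(0 : ℂ) - w‖ = ‖w‖ := by rw [zero_sub, norm_neg]
  rw [h3]
  rw [mem_ball_zero_iff] at hw
  have := Real.rpow_le_rpow_of_exponent_ge (norm_pos_iff.2 hw0) hw.le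
    (by norm_num : (-1 : ℝ) ≤ -(1 / 2))
  gcongr

/-- Hölder continuity -/
theorem holder (hF : SB A F) (z z' : ℂ) :
    ‖CT.cauT F z - CT.cauT F z'‖ ≤ 8 * CT.cst 0 (7 / 4) / Real.pi * A * ‖z - z'‖ ^ (1 / 4 : ℝ) := by
  have hpi := Real.pi_pos
  have hI := hF.integrableOn_ker z
  have hI' := hF.integrableOn_ker z'
  have k0 := intk (s := 7 / 4) (by norm_num) (by norm_num) 0
  have kz := intk (s := 7 / 4) (by norm_num) (by norm_num) z
  have kz' := intk (s := 7 / 4) (by norm_num) (by norm_num) z'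
  have h1 : CT.cauT F z - CT.cauT F z' = ((Real.pi : ℝ) : ℂ)⁻¹ •
      ∫ w in ball (0 : ℂ) 1, ((z - w)⁻¹ - (z' - w)⁻¹) • F w := by
    rw [CT.cauT, CT.cauT, ← smul_sub, ← integral_sub hI hI']
    congr 1
    refine integral_congr_ae (Eventually.of_forall fun w => ?_)
    simp only
    rw [sub_smul]
  have h2 : ‖∫ w in ball (0 : ℂ) 1, ((z - w)⁻¹ - (z' - w)⁻¹) • F w‖ ≤
      2 * ‖z - z'‖ ^ (1 / 4 : ℝ) * A * (4 * CT.cst 0 (7 / 4)) := by
    calc ‖∫ w in ball (0 : ℂ) 1, ((z - w)⁻¹ - (z' - w)⁻¹) • F w‖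
        ≤ ∫ w in ball (0 : ℂ) 1, 2 * ‖z - z'‖ ^ (1 / 4 : ℝ) * A *
            ((‖(0 : ℂ) - w‖ ^ (-(7 / 4) : ℝ) + ‖z - w‖ ^ (-(7 / 4) : ℝ)) +
              (‖(0 : ℂ) - w‖ ^ (-(7 / 4) : ℝ) + ‖z' - w‖ ^ (-(7 / 4) : ℝ))) := by
          refine norm_integral_le_of_norm_le (((k0.add kz).add (k0.add kz')).const_mul _) ?_
          filter_upwards [ae_restrict_mem measurableSet_ball, ae_ne 0, ae_ne z, ae_ne z'] with
            w hw hw0 hwz hwz'
          have e1 := CT.inv_sub_inv_le (sub_ne_zero.2 (Ne.symm hwz)) (sub_ne_zero.2 (Ne.symm hwz'))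
            (by norm_num : (0 : ℝ) ≤ 1 / 4) (by norm_num)
          rw [sub_sub_sub_cancel_right] at e1
          have e2 := hF.ker_bound z (by norm_num : (0 : ℝ) ≤ 1 + 1 / 4) hw hw0 hwz
          have e3 := hF.ker_bound z' (by norm_num : (0 : ℝ) ≤ 1 + 1 / 4) hw hw0 hwz'
          have e4 : (1 / 2 + (1 + 1 / 4) : ℝ) = 7 / 4 := by norm_num
          rw [e4] at e2 e3
          rw [norm_smul]
          calc ‖(z - w)⁻¹ - (z' - w)⁻¹‖ * ‖F w‖
              ≤ (2 * ‖z - z'‖ ^ (1 / 4 : ℝ) * (‖z - w‖ ^ (-(1 + 1 / 4) : ℝ) +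
                ‖z' - w‖ ^ (-(1 + 1 / 4) : ℝ))) * ‖F w‖ := by gcongr
            _ = 2 * ‖z - z'‖ ^ (1 / 4 : ℝ) * (‖z - w‖ ^ (-(1 + 1 / 4) : ℝ) * ‖F w‖ +
                ‖z' - w‖ ^ (-(1 + 1 / 4) : ℝ) * ‖F w‖) := by ring
            _ ≤ 2 * ‖z - z'‖ ^ (1 / 4 : ℝ) *
                (A * (‖(0 : ℂ) - w‖ ^ (-(7 / 4) : ℝ) + ‖z - w‖ ^ (-(7 / 4) : ℝ)) +
                A * (‖(0 : ℂ) - w‖ ^ (-(7 / 4) : ℝ) + ‖z' - w‖ ^ (-(7 / 4) : ℝ))) := by gcongr
            _ = _ := by ring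
      _ = 2 * ‖z - z'‖ ^ (1 / 4 : ℝ) * A *
          (((∫ w in ball (0 : ℂ) 1, ‖(0 : ℂ) - w‖ ^ (-(7 / 4) : ℝ)) +
            ∫ w in ball (0 : ℂ) 1, ‖z - w‖ ^ (-(7 / 4) : ℝ)) +
          ((∫ w in ball (0 : ℂ) 1, ‖(0 : ℂ) - w‖ ^ (-(7 / 4) : ℝ)) +
            ∫ w in ball (0 : ℂ) 1, ‖z' - w‖ ^ (-(7 / 4) : ℝ))) := by
          have ks : IntegrableOn (fun w : ℂ => ‖(0 : ℂ) - w‖ ^ (-(7 / 4) : ℝ) +
            ‖z - w‖ ^ (-(7 / 4) : ℝ)) (ball (0 : ℂ) 1) := k0.add kz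
          have ks' : IntegrableOn (fun w : ℂ => ‖(0 : ℂ) - w‖ ^ (-(7 / 4) : ℝ) +
            ‖z' - w‖ ^ (-(7 / 4) : ℝ)) (ball (0 : ℂ) 1) := k0.add kz'
          rw [integral_const_mul, integral_add ks ks', integral_add k0 kz, integral_add k0 kz']
      _ ≤ _ := by
          have hA := hF.nonneg
          have g0 := intk_le (s := 7 / 4) (by norm_num) (by norm_num) 0
          have g1 := intk_le (s := 7 / 4) (by norm_num) (by norm_num) z
          have g2 := intk_le (s := 7 / 4) (by norm_num) (by norm_num) z'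
          refine mul_le_mul_of_nonneg_left ?_ (by positivity)
          linarith
  rw [h1, norm_smul, norm_inv, Complex.norm_real, Real.norm_eq_abs, abs_of_pos hpi]
  calc Real.pi⁻¹ * ‖∫ w in ball (0 : ℂ) 1, ((z - w)⁻¹ - (z' - w)⁻¹) • F w‖
      ≤ Real.pi⁻¹ * (2 * ‖z - z'‖ ^ (1 / 4 : ℝ) * A * (4 * CT.cst 0 (7 / 4))) := by gcongr
    _ = _ := by field_simp; ring

theorem continuous (hF : SB A F) : Continuous (CT.cauT F) := by
  rw [continuous_iff_continuousAt]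
  intro z
  rw [ContinuousAt, tendsto_iff_norm_sub_tendsto_zero]
  have h3 : Continuous (fun z' : ℂ => 8 * CT.cst 0 (7 / 4) / Real.pi * A *
      ‖z' - z‖ ^ (1 / 4 : ℝ)) :=
    continuous_const.mul (Continuous.rpow_const (by fun_prop) fun _ => Or.inr (by norm_num))
  have h4 := h3.tendsto z
  rw [sub_self, norm_zero, Real.zero_rpow (by norm_num), mul_zero] at h4
  exact squeeze_zero (fun _ => norm_nonneg _) (fun z' => hF.holder z' z) h4

end SB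

end Vale.Agent.P247.H74.SP
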