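import Vale.Agent.P247.H74.Sta
import Vale.Agent.P247.H74.SP.Ker

/-!
# SP: the similarity principle, as an expansion

A continuous function `u`, `C¹` off the origin, with `‖∂̄ u‖ ≤ C ‖u‖` either vanishes near the
origin or has a leading term `z ^ m • a`.
-/

open scoped ContDiff Topology
open Set MeasureTheory Filter Metric Asymptotics
open Vale.Agent.P272

noncomputable section

namespace Vale.Agent.P247.H74.SP

set_option linter.unusedSectionVars false

variable {E : Type*} [NormedAddCommGroup E] [NormedSpace ℂ E] [CompleteSpace E]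

/-- the punctured unit disc -/
def pd : Set ℂ := ball (0 : ℂ) 1 \ {0}

theorem isOpen_pd : IsOpen pd := isOpen_ball.sdiff isClosed_singleton

theorem mem_pd {z : ℂ} : z ∈ pd ↔ ‖z‖ < 1 ∧ z ≠ 0 := by
  rw [pd, Set.mem_sdiff, mem_ball_zero_iff, mem_singleton_iff]

/-- solutions of the differential inequality on the punctured disc -/
structure Sol (ε : ℝ) (G : ℂ → E) : Prop where
  c1 : ContDiffOn ℝ 1 G pd
  eq : ∀ z ∈ pd, ‖dbar G z‖ ≤ ε * ‖G z‖

/-- the source term -/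
def src (G : ℂ → E) : ℂ → E := pd.indicator (dbar G)

theorem aesm_src {G : ℂ → E} (hG : ContDiffOn ℝ 1 G pd) :
    AEStronglyMeasurable (src G) (volume.restrict (ball (0 : ℂ) 1)) := by
  have h1 : ContinuousOn (dbar G) pd := CT.continuousOn_dbarV isOpen_pd hG
  have h2 := h1.aestronglyMeasurable (μ := volume) isOpen_pd.measurableSet
  exact ((aestronglyMeasurable_indicator_iff isOpen_pd.measurableSet).2 h2).restrict

theorem dbar_smul_holo {p : ℂ → ℂ} {G : ℂ → E} {z : ℂ} (hp : DifferentiableAt ℂ p z)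
    (hG : DifferentiableAt ℝ G z) : dbar (fun z => p z • G z) z = p z • dbar G z := by
  have h1 : dbar (fun z => p z • G z) z = CT.dbar p z • G z + p z • dbar G z :=
    CT.dbarV_smul (hp.restrictScalars ℝ) hG
  have h2 : CT.dbar p z = 0 := by
    have := (CT.dbarV_eq_zero_iff (hp.restrictScalars ℝ)).2 hp
    rwa [CT.dbarV_eq] at this
  rw [h1, h2, zero_smul, zero_add]

theorem Sol.diff {ε : ℝ} {G : ℂ → E} (hG : Sol ε G) {z : ℂ} (hz : z ∈ pd) :
    DifferentiableAt ℝ G z :=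
  (hG.c1.differentiableOn (by simp)).differentiableAt (isOpen_pd.mem_nhds hz)

theorem Sol.smul {ε : ℝ} {p : ℂ → ℂ} {G : ℂ → E} (hG : Sol ε G) (hp : DifferentiableOn ℂ p pd) :
    Sol ε (fun z => p z • G z) where
  c1 := (((hp.contDiffOn (n := 1) isOpen_pd).restrict_scalars ℝ).smul hG.c1)
  eq := fun z hz => by
    rw [dbar_smul_holo (hp.differentiableAt (isOpen_pd.mem_nhds hz)) (hG.diff hz), norm_smul,
      norm_smul]
    have := hG.eq z hz
    have h2 := norm_nonneg (p z)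
    nlinarith

theorem wb_src {ε B : ℝ} {G : ℂ → E} (hε : 0 ≤ ε) (hG : Sol ε G) (hB : ∀ z ∈ pd, ‖G z‖ ≤ B) :
    CT.WB 0 (ε * B) (src G) := by
  have hB0 : 0 ≤ B := (norm_nonneg _).trans (hB (1 / 2) (mem_pd.2 ⟨by norm_num, by norm_num⟩))
  refine ⟨aesm_src hG.c1, fun w hw => ?_⟩
  rw [neg_zero, Real.rpow_zero, mul_one]
  by_cases h : w ∈ pd
  · rw [src, indicator_of_mem h]
    exact (hG.eq w h).trans (mul_le_mul_of_nonneg_left (hB w h) hε)
  · rw [src, indicator_of_notMem h, norm_zero]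
    positivity

theorem holo_sub {G : ℂ → E} (hG : ContDiffOn ℝ 1 G pd)
    (hi : IntegrableOn (src G) (ball (0 : ℂ) 1)) (hc : Continuous (CT.cauT (src G))) :
    DifferentiableOn ℂ (fun z => G z - CT.cauT (src G) z) pd := by
  refine CT.WDb.holo isOpen_pd (hG.continuousOn.sub hc.continuousOn) ?_
  intro η hη hcs hs
  have h1 := CT.WDb.of_contDiffOn isOpen_pd hG η hη hcs hs
  have h2 := ((CT.wdb_cauT hi).mono (show pd ⊆ ball (0 : ℂ) 1 from sdiff_subset)) η hη hcs hs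
  have h3 : ∫ z, η z • src G z = ∫ z, η z • CT.dbarV G z := by
    refine integral_congr_ae (Eventually.of_forall fun z => ?_)
    by_cases hz : z ∈ tsupport η
    · simp only [src, indicator_of_mem (hs hz)]
      rfl
    · simp only [image_eq_zero_of_notMem_tsupport hz, zero_smul]
  have hd : Continuous (CT.dbar η) := (CT.contDiff_dbar hη).continuous
  have i1 := CT.integrable_smul_of_tsupport isOpen_pd hd (CT.hasCompactSupport_dbar hcs)
    hG.continuousOn ((CT.tsupport_dbar η).trans hs)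
  have i2 := CT.integrable_smul_of_tsupport isOpen_pd hd (CT.hasCompactSupport_dbar hcs)
    hc.continuousOn ((CT.tsupport_dbar η).trans hs)
  simp only [smul_sub, smul_zero, integral_zero, neg_zero]
  rw [integral_sub i1 i2, h1, h2, h3, sub_self]

theorem ball_mem : ball (0 : ℂ) 1 ∈ 𝓝 (0 : ℂ) := isOpen_ball.mem_nhds (mem_ball_self one_pos)

theorem pd_mem : pd ∈ 𝓝[≠] (0 : ℂ) := by
  rw [pd]
  exact sdiff_mem_nhdsWithin_compl ball_mem _

/-- one step of the expansion -/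
theorem stepA {ε B : ℝ} {G : ℂ → E} (hε : 0 ≤ ε) (hG : Sol ε G) (hB : ∀ z ∈ pd, ‖G z‖ ≤ B)
    (h0 : Tendsto G (𝓝[≠] 0) (𝓝 0)) : ∃ a, Tendsto (fun z => z⁻¹ • G z) (𝓝[≠] 0) (𝓝 a) := by
  have hB0 : 0 ≤ B := (norm_nonneg _).trans (hB (1 / 2) (mem_pd.2 ⟨by norm_num, by norm_num⟩))
  have hwb := wb_src hε hG hB
  have hc : Continuous (CT.cauT (src G)) := hwb.continuous_cauT le_rfl one_pos
  have hi : IntegrableOn (src G) (ball (0 : ℂ) 1) := hwb.integrableOn le_rfl one_pos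
  have hd := holo_sub hG.c1 hi hc
  set T := CT.cauT (src G) with hT
  set h : ℂ → E := fun z => G z - T z with hh
  set h' : ℂ → E := Function.update h 0 (0 - T 0) with hh'
  have hlim : Tendsto h (𝓝[≠] 0) (𝓝 (0 - T 0)) :=
    h0.sub (hc.tendsto 0 |>.mono_left nhdsWithin_le_nhds)
  have hca : ContinuousAt h' 0 := by
    rw [hh', continuousAt_update_same]
    exact hlim
  have hdd : DifferentiableOn ℂ h' (ball 0 1) := by
    refine (Complex.differentiableOn_compl_singleton_and_continuousAt_iff ball_mem).1 ⟨?_, hca⟩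
    refine hd.congr fun z hz => ?_
    rw [hh', Function.update_of_ne hz.2]
  have hO := (hdd.differentiableAt ball_mem).isBigO_sub
  obtain ⟨K, hK⟩ := hO.bound
  obtain ⟨δ, hδ, hKδ⟩ := Metric.eventually_nhds_iff.1 hK
  -- Hölder bound
  have hbd : ∃ K', 0 ≤ K' ∧ ∀ z ∈ pd, ‖G z‖ ≤ K' * ‖z‖ ^ (1 / 2 : ℝ) := by
    set c := 4 * CT.cst 0 (1 + 1 / 2) / Real.pi * (ε * B) with hcc
    have hc0 : 0 ≤ c := by
      have := CT.cst_nonneg 0 (1 + 1 / 2)
      have := Real.pi_pos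
      positivity
    set δ' := min δ 1 with hδ'
    have hδ'0 : 0 < δ' := lt_min hδ one_pos
    have hp : 0 < δ' ^ (1 / 2 : ℝ) := Real.rpow_pos_of_pos hδ'0 _
    refine ⟨|K| + c + B / δ' ^ (1 / 2 : ℝ), by positivity, fun z hz => ?_⟩
    obtain ⟨hz1, hz0⟩ := mem_pd.1 hz
    have hzp : 0 ≤ ‖z‖ ^ (1 / 2 : ℝ) := by positivity
    rcases lt_or_ge ‖z‖ δ' with hlt | hge
    · have e1 : G z = (h' z - h' 0) + (T z - T 0) := by
        rw [hh', Function.update_of_ne hz0, Function.update_self, hh]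
        simp only
        abel
      have e2 := hKδ (y := z) (by rw [dist_zero_right]; exact hlt.trans_le (min_le_left _ _))
      rw [sub_zero] at e2
      have e3 := hwb.cauT_holder (h := 1 / 2) le_rfl (by norm_num) (by norm_num) z 0
      rw [sub_zero] at e3
      have e4 : ‖z‖ ≤ ‖z‖ ^ (1 / 2 : ℝ) := by
        have := Real.rpow_le_rpow_of_exponent_ge (norm_pos_iff.2 hz0) hz1.le
          (by norm_num : (1 / 2 : ℝ) ≤ 1)
        rwa [Real.rpow_one] at this
      calc ‖G z‖ ≤ ‖h' z - h' 0‖ + ‖T z - T 0‖ := by rw [e1]; exact norm_add_le _ _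
        _ ≤ K * ‖z‖ + c * ‖z‖ ^ (1 / 2 : ℝ) := add_le_add e2 e3
        _ ≤ |K| * ‖z‖ ^ (1 / 2 : ℝ) + c * ‖z‖ ^ (1 / 2 : ℝ) := by
            gcongr
            exact le_abs_self K
        _ = (|K| + c) * ‖z‖ ^ (1 / 2 : ℝ) := by ring
        _ ≤ (|K| + c + B / δ' ^ (1 / 2 : ℝ)) * ‖z‖ ^ (1 / 2 : ℝ) :=
            mul_le_mul_of_nonneg_right (le_add_of_nonneg_right (by positivity)) hzp
    · have e1 : δ' ^ (1 / 2 : ℝ) ≤ ‖z‖ ^ (1 / 2 : ℝ) :=
        Real.rpow_le_rpow hδ'0.le hge (by norm_num)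
      calc ‖G z‖ ≤ B := hB z hz
        _ = B / δ' ^ (1 / 2 : ℝ) * δ' ^ (1 / 2 : ℝ) := by field_simp
        _ ≤ B / δ' ^ (1 / 2 : ℝ) * ‖z‖ ^ (1 / 2 : ℝ) := by gcongr
        _ ≤ (|K| + c + B / δ' ^ (1 / 2 : ℝ)) * ‖z‖ ^ (1 / 2 : ℝ) :=
            mul_le_mul_of_nonneg_right (le_add_of_nonneg_left (by positivity)) hzp
  obtain ⟨K', hK'0, hK'⟩ := hbd
  -- the quotient
  have hinv : DifferentiableOn ℂ (fun z : ℂ => z⁻¹) pd := fun z hz =>
    (differentiableAt_inv (mem_pd.1 hz).2).differentiableWithinAt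
  have hG1 : Sol ε (fun z => z⁻¹ • G z) := hG.smul hinv
  set G1 : ℂ → E := fun z => z⁻¹ • G z with hG1d
  have hsb : SB (ε * K') (src G1) := by
    refine ⟨aesm_src hG1.c1, fun w hw hw0 => ?_⟩
    have hwp : w ∈ pd := ⟨hw, hw0⟩
    rw [src, indicator_of_mem hwp]
    refine (hG1.eq w hwp).trans ?_
    have e1 := hK' w hwp
    have hw' : 0 < ‖w‖ := norm_pos_iff.2 hw0
    have e2 : ‖w‖⁻¹ * ‖w‖ ^ (1 / 2 : ℝ) = ‖w‖ ^ (-(1 / 2) : ℝ) := by
      rw [← Real.rpow_neg_one, ← Real.rpow_add hw']; norm_num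
    calc ε * ‖G1 w‖ = ε * (‖w‖⁻¹ * ‖G w‖) := by rw [hG1d]; simp only [norm_smul, norm_inv]
      _ ≤ ε * (‖w‖⁻¹ * (K' * ‖w‖ ^ (1 / 2 : ℝ))) := by gcongr
      _ = ε * K' * (‖w‖⁻¹ * ‖w‖ ^ (1 / 2 : ℝ)) := by ring
      _ = _ := by rw [e2]
  have hc1 := hsb.continuous
  have hd1 := holo_sub hG1.c1 hsb.integrableOn hc1
  set T1 := CT.cauT (src G1) with hT1
  have hev : ∀ᶠ z in 𝓝[≠] (0 : ℂ), DifferentiableAt ℂ (fun z => G1 z - T1 z) z := by
    filter_upwards [pd_mem] with z hz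
    exact hd1.differentiableAt (isOpen_pd.mem_nhds hz)
  have hlo : (fun z => (G1 z - T1 z) - (G1 0 - T1 0)) =o[𝓝[≠] (0 : ℂ)]
      fun z => (z - 0)⁻¹ := by
    have a1 : G1 =o[𝓝[≠] (0 : ℂ)] fun z => (z - 0)⁻¹ := by
      rw [isLittleO_iff]
      intro c hc'
      have := (tendsto_zero_iff_norm_tendsto_zero.1 h0).eventually (gt_mem_nhds hc')
      filter_upwards [this] with z hz
      rw [hG1d]
      simp only [norm_smul, sub_zero]
      rw [mul_comm]
      gcongr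
    have a2 : (fun z => T1 z + (G1 0 - T1 0)) =o[𝓝[≠] (0 : ℂ)] fun z => (z - 0)⁻¹ := by
      have b1 : (fun z => T1 z + (G1 0 - T1 0)) =O[𝓝[≠] (0 : ℂ)] fun _ => (1 : ℝ) :=
        ((hc1.add continuous_const).tendsto 0 |>.mono_left nhdsWithin_le_nhds).isBigO_one ℝ
      refine b1.trans_isLittleO ?_
      rw [isLittleO_const_left]
      right
      have := tendsto_norm_inv_nhdsNE_zero_atTop (α := ℂ)
      simpa [Function.comp_def] using this
    refine (a1.sub a2).congr_left fun z => ?_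
    abel
  have hl := Complex.tendsto_limUnder_of_differentiable_on_punctured_nhds_of_isLittleO hev hlo
  refine ⟨_, (hl.add (hc1.tendsto 0 |>.mono_left nhdsWithin_le_nhds)).congr fun z => ?_⟩
  rw [hG1d]
  simp only [sub_add_cancel]

/-- flatness of order `k` and continuity give the value `0` -/
theorem zero_at {U : ℂ → E} {k : ℕ} (hc : ContinuousOn U (closedBall 0 1))
    (h : Tendsto (fun z => (z ^ k)⁻¹ • U z) (𝓝[≠] 0) (𝓝 0)) : U 0 = 0 := by
  have hca : ContinuousAt U 0 := hc.continuousAt (closedBall_mem_nhds 0 one_pos)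
  have h1 : Tendsto U (𝓝[≠] 0) (𝓝 (U 0)) := hca.tendsto.mono_left nhdsWithin_le_nhds
  have h2 : Tendsto (fun z : ℂ => z ^ k • ((z ^ k)⁻¹ • U z)) (𝓝[≠] 0) (𝓝 ((0 : ℂ) ^ k • (0 : E))) :=
    (((continuous_pow k).tendsto 0).mono_left nhdsWithin_le_nhds).smul h
  rw [smul_zero] at h2
  refine tendsto_nhds_unique h1 (h2.congr' ?_)
  filter_upwards [self_mem_nhdsWithin] with z hz
  rw [smul_smul, mul_inv_cancel₀ (pow_ne_zero k hz), one_smul]

theorem Sol.powinv {ε : ℝ} {U : ℂ → E} (hU : Sol ε U) (k : ℕ) :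
    Sol ε (fun z => (z ^ k)⁻¹ • U z) := by
  refine hU.smul fun z hz => ?_
  exact ((differentiableAt_id.pow k).inv (pow_ne_zero k (mem_pd.1 hz).2)).differentiableWithinAt

/-- the expansion up to order `k` -/
theorem lead {ε : ℝ} {U : ℂ → E} (hε : 0 ≤ ε) (hU : Sol ε U)
    (hc : ContinuousOn U (closedBall 0 1)) (k : ℕ) :
    (∃ (m : ℕ) (a : E), a ≠ 0 ∧ (fun z => U z - z ^ m • a) =o[𝓝 0] (fun z => z ^ m)) ∨
      Tendsto (fun z => (z ^ k)⁻¹ • U z) (𝓝[≠] 0) (𝓝 0) := by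
  have hca : ContinuousAt U 0 := hc.continuousAt (closedBall_mem_nhds 0 one_pos)
  induction k with
  | zero =>
    by_cases h0 : U 0 = 0
    · right
      simp only [pow_zero, inv_one, one_smul]
      have := hca.tendsto.mono_left (nhdsWithin_le_nhds (s := {(0 : ℂ)}ᶜ))
      rwa [h0] at this
    · left
      refine ⟨0, U 0, h0, ?_⟩
      simp only [pow_zero, one_smul]
      rw [isLittleO_one_iff]
      have := hca.tendsto.sub_const (U 0)
      rwa [sub_self] at this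
  | succ k ih =>
    rcases ih with h | h
    · exact Or.inl h
    have hU0 := zero_at hc h
    have hG := hU.powinv k
    obtain ⟨S, hS⟩ := (isCompact_closedBall (0 : ℂ) 1).exists_bound_of_continuousOn hc
    have hS0 : 0 ≤ S := (norm_nonneg _).trans (hS 0 (mem_closedBall_self zero_le_one))
    have h1 := (tendsto_zero_iff_norm_tendsto_zero.1 h).eventually (gt_mem_nhds one_pos)
    obtain ⟨δ, hδ, h2⟩ := Metric.mem_nhdsWithin_iff.1 h1
    have hB : ∀ z ∈ pd, ‖(z ^ k)⁻¹ • U z‖ ≤ 1 + (δ ^ k)⁻¹ * S := by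
      intro z hz
      obtain ⟨hz1, hz0⟩ := mem_pd.1 hz
      rcases lt_or_ge ‖z‖ δ with hlt | hge
      · have e1 : ‖(z ^ k)⁻¹ • U z‖ < 1 := h2 ⟨by rwa [mem_ball_zero_iff], hz0⟩
        have : 0 ≤ (δ ^ k)⁻¹ * S := by positivity
        linarith
      · rw [norm_smul, norm_inv, norm_pow]
        have e1 : (‖z‖ ^ k)⁻¹ ≤ (δ ^ k)⁻¹ := by gcongr
        have e2 : ‖U z‖ ≤ S := hS z (by rw [mem_closedBall_zero_iff]; exact hz1.le)
        have : (‖z‖ ^ k)⁻¹ * ‖U z‖ ≤ (δ ^ k)⁻¹ * S := by gcongr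
        linarith
    obtain ⟨a, ha⟩ := stepA hε hG hB h
    have ha' : Tendsto (fun z => (z ^ (k + 1))⁻¹ • U z) (𝓝[≠] 0) (𝓝 a) := by
      refine ha.congr fun z => ?_
      rw [smul_smul, pow_succ', mul_inv]
    by_cases ha0 : a = 0
    · right
      rwa [ha0] at ha'
    left
    refine ⟨k + 1, a, ha0, ?_⟩
    rw [isLittleO_iff]
    intro c hcp
    have h3 : ∀ᶠ z in 𝓝[≠] (0 : ℂ), ‖(z ^ (k + 1))⁻¹ • U z - a‖ < c := by
      have := (tendsto_iff_norm_sub_tendsto_zero.1 ha').eventually (gt_mem_nhds hcp)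
      exact this
    rw [eventually_nhdsWithin_iff] at h3
    filter_upwards [h3] with z hz
    by_cases hz0 : z = 0
    · subst hz0
      simp [hU0]
    · have e1 := hz hz0
      have hzk : z ^ (k + 1) ≠ 0 := pow_ne_zero _ hz0
      have e2 : U z - z ^ (k + 1) • a = z ^ (k + 1) • ((z ^ (k + 1))⁻¹ • U z - a) := by
        rw [smul_sub, smul_smul, mul_inv_cancel₀ hzk, one_smul]
      rw [e2, norm_smul, mul_comm]
      gcongr

/-- strong unique continuation on the unit disc -/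
theorem ucp {ε : ℝ} {U : ℂ → E} (hε : 0 ≤ ε) (hε2 : 2 * (CT.cst 0 1 / Real.pi * ε) ≤ 1 / 2)
    (hU : Sol ε U) (hc : ContinuousOn U (closedBall 0 1))
    (h : ∀ k : ℕ, Tendsto (fun z => (z ^ k)⁻¹ • U z) (𝓝[≠] 0) (𝓝 0)) :
    ∀ z ∈ ball (0 : ℂ) 1, U z = 0 := by
  obtain ⟨M, hM⟩ := (isCompact_closedBall (0 : ℂ) 1).exists_bound_of_continuousOn hc
  have hM0 : 0 ≤ M := (norm_nonneg _).trans (hM 0 (mem_closedBall_self zero_le_one))
  have hU0 : U 0 = 0 := zero_at hc (h 0)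
  have key : ∀ k : ℕ, 1 ≤ k → ∀ z ∈ ball (0 : ℂ) 1, ‖U z‖ ≤ 2 * M * ‖z‖ ^ k := by
    intro k hk
    have hG := hU.powinv k
    set G : ℂ → E := fun z => (z ^ k)⁻¹ • U z with hGd
    have hG0 : G 0 = 0 := by
      rw [hGd]
      simp only [zero_pow (by omega : k ≠ 0), inv_zero, zero_smul]
    have hGc : ContinuousOn G (closedBall 0 1) := by
      intro z hz
      by_cases hz0 : z = 0
      · subst hz0
        refine ContinuousAt.continuousWithinAt ?_
        rw [continuousAt_iff_punctured_nhds, hG0]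
        exact h k
      · have e1 : ContinuousAt (fun z : ℂ => (z ^ k)⁻¹) z :=
          (continuousAt_id.pow k).inv₀ (pow_ne_zero k hz0)
        exact e1.continuousWithinAt.smul (hc z hz)
    obtain ⟨z0, hz0, hmax⟩ := (isCompact_closedBall (0 : ℂ) 1).exists_isMaxOn
      ⟨0, mem_closedBall_self zero_le_one⟩ hGc.norm
    set S := ‖G z0‖ with hSd
    have hS : ∀ z ∈ closedBall (0 : ℂ) 1, ‖G z‖ ≤ S := fun z hz => hmax hz
    have hSp : ∀ z ∈ pd, ‖G z‖ ≤ S := fun z hz =>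
      hS z (by rw [mem_closedBall_zero_iff]; exact (mem_pd.1 hz).1.le)
    have hwb := wb_src hε hG hSp
    have hcT : Continuous (CT.cauT (src G)) := hwb.continuous_cauT le_rfl one_pos
    have hi : IntegrableOn (src G) (ball (0 : ℂ) 1) := hwb.integrableOn le_rfl one_pos
    have hd := holo_sub hG.c1 hi hcT
    have hTb : ∀ z, ‖CT.cauT (src G) z‖ ≤ CT.cst 0 1 / Real.pi * (ε * S) :=
      fun z => hwb.norm_cauT_le le_rfl one_pos z
    set T := CT.cauT (src G) with hT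
    have hcon : ContinuousOn (fun z => G z - T z) (closedBall 0 1) := hGc.sub hcT.continuousOn
    have hdiff : DifferentiableOn ℂ (fun z => G z - T z) (ball 0 1) :=
      (Complex.differentiableOn_compl_singleton_and_continuousAt_iff ball_mem).1
        ⟨hd, hcon.continuousAt (closedBall_mem_nhds 0 one_pos)⟩
    have hdc : DiffContOnCl ℂ (fun z => G z - T z) (ball (0 : ℂ) 1) :=
      ⟨hdiff, by rw [closure_ball (0 : ℂ) one_ne_zero]; exact hcon⟩
    have hb : ∀ z ∈ frontier (ball (0 : ℂ) 1), ‖G z - T z‖ ≤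
        M + CT.cst 0 1 / Real.pi * (ε * S) := by
      intro z hz
      rw [frontier_ball (0 : ℂ) one_ne_zero, mem_sphere_zero_iff_norm] at hz
      have e1 : ‖G z‖ ≤ M := by
        rw [hGd]
        simp only
        rw [norm_smul, norm_inv, norm_pow, hz, one_pow, inv_one, one_mul]
        exact hM z (by rw [mem_closedBall_zero_iff, hz])
      exact (norm_sub_le _ _).trans (add_le_add e1 (hTb z))
    have h1 := Complex.norm_le_of_forall_mem_frontier_norm_le isBounded_ball hdc hb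
      (z := z0) (by rw [closure_ball (0 : ℂ) one_ne_zero]; exact hz0)
    have h2 : S ≤ ‖G z0 - T z0‖ + ‖T z0‖ := by
      have : G z0 = (G z0 - T z0) + T z0 := by abel
      calc S = ‖(G z0 - T z0) + T z0‖ := by rw [← this]
        _ ≤ _ := norm_add_le _ _
    have h3 := hTb z0
    have hS0 : 0 ≤ S := norm_nonneg _
    have h4 : CT.cst 0 1 / Real.pi * (ε * S) = (CT.cst 0 1 / Real.pi * ε) * S := by ring
    have h5 : S ≤ 2 * M := by
      rw [h4] at h1 h3
      nlinarith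
    intro z hz
    by_cases hzz : z = 0
    · subst hzz
      rw [hU0, norm_zero]
      positivity
    · have e1 := (hS z (ball_subset_closedBall hz)).trans h5
      rw [hGd] at e1
      simp only [norm_smul, norm_inv, norm_pow] at e1
      have hp : 0 < ‖z‖ ^ k := pow_pos (norm_pos_iff.2 hzz) k
      rwa [inv_mul_le_iff₀ hp, mul_comm] at e1
  intro z hz
  rw [mem_ball_zero_iff] at hz
  have hlim : Tendsto (fun k : ℕ => 2 * M * ‖z‖ ^ k) atTop (𝓝 (2 * M * 0)) :=
    (tendsto_pow_atTop_nhds_zero_of_lt_one (norm_nonneg z) hz).const_mul _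
  rw [mul_zero] at hlim
  have : ‖U z‖ ≤ 0 := by
    refine ge_of_tendsto hlim ?_
    filter_upwards [eventually_ge_atTop 1] with k hk
    exact key k hk z (by rwa [mem_ball_zero_iff])
  exact norm_le_zero_iff.1 this

/-- the expansion on a disc of arbitrary radius, values in any complex Banach space -/
theorem expansion {u : ℂ → E} {R C : ℝ} (hR : 0 < R) (hu : ContinuousOn u (ball 0 R))
    (hu1 : ContDiffOn ℝ 1 u (ball 0 R \ {0}))
    (hC : ∀ z ∈ ball (0 : ℂ) R \ {0}, ‖dbar u z‖ ≤ C * ‖u z‖) :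
    (∃ r > 0, ∀ z ∈ ball (0 : ℂ) r, u z = 0) ∨
    ∃ (m : ℕ) (a : E), a ≠ 0 ∧ (fun z => u z - z ^ m • a) =o[𝓝 0] (fun z => z ^ m) := by
  set C' := max C 0 with hC'
  have hC'0 : 0 ≤ C' := le_max_right _ _
  set c0 := CT.cst 0 1 / Real.pi with hc0
  have hc00 : 0 ≤ c0 := div_nonneg (CT.cst_nonneg _ _) Real.pi_pos.le
  -- the scaling factor
  obtain ⟨ρ, hρ0, hρR, hρs⟩ : ∃ ρ : ℝ, 0 < ρ ∧ ρ < R ∧ 2 * (c0 * (ρ * C')) ≤ 1 / 2 := by
    refine ⟨min (R / 2) (1 / (4 * (c0 * C' + 1))), by positivity,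
      (min_le_left _ _).trans_lt (by linarith), ?_⟩
    have h1 : min (R / 2) (1 / (4 * (c0 * C' + 1))) ≤ 1 / (4 * (c0 * C' + 1)) := min_le_right _ _
    have h2 : 0 ≤ c0 * C' := by positivity
    calc 2 * (c0 * (min (R / 2) (1 / (4 * (c0 * C' + 1))) * C'))
        = 2 * (c0 * C') * min (R / 2) (1 / (4 * (c0 * C' + 1))) := by ring
      _ ≤ 2 * (c0 * C') * (1 / (4 * (c0 * C' + 1))) := by gcongr
      _ ≤ 1 / 2 := by
          rw [mul_one_div, div_le_iff₀ (by positivity)]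
          linarith
  set U : ℂ → E := fun z => u (ρ • z) with hUd
  have hmaps : ∀ z : ℂ, ‖z‖ ≤ 1 → ρ • z ∈ ball (0 : ℂ) R := by
    intro z hz
    rw [mem_ball_zero_iff, norm_smul, Real.norm_eq_abs, abs_of_pos hρ0]
    nlinarith
  have hUc : ContinuousOn U (closedBall 0 1) :=
    hu.comp (by fun_prop) fun z hz => hmaps z (by rwa [mem_closedBall_zero_iff] at hz)
  have hmp : ∀ z ∈ pd, ρ • z ∈ ball (0 : ℂ) R \ {0} := fun z hz =>
    ⟨hmaps z (mem_pd.1 hz).1.le, by
      rw [mem_singleton_iff, smul_eq_zero, not_or]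
      exact ⟨hρ0.ne', (mem_pd.1 hz).2⟩⟩
  have hopen : IsOpen (ball (0 : ℂ) R \ {0}) := isOpen_ball.sdiff isClosed_singleton
  have hUS : Sol (ρ * C') U := by
    constructor
    · exact hu1.comp (by fun_prop) hmp
    · intro z hz
      have hd : DifferentiableAt ℝ u (ρ • z) :=
        (hu1.differentiableOn (by simp)).differentiableAt (hopen.mem_nhds (hmp z hz))
      have h1 : HasFDerivAt U ((fderiv ℝ u (ρ • z)).comp (ρ • ContinuousLinearMap.id ℝ ℂ)) z :=
        hd.hasFDerivAt.comp z ((ρ • ContinuousLinearMap.id ℝ ℂ).hasFDerivAt)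
      have h2 : dbar U z = ρ • dbar u (ρ • z) := by
        unfold dbar
        rw [h1.fderiv]
        simp only [ContinuousLinearMap.comp_apply, smul_apply,
          ContinuousLinearMap.id_apply, map_smul]
        rw [smul_comm Complex.I ρ, ← smul_add, smul_comm]
      rw [h2, norm_smul, Real.norm_eq_abs, abs_of_pos hρ0]
      have h3 := hC _ (hmp z hz)
      have h4 : C * ‖u (ρ • z)‖ ≤ C' * ‖u (ρ • z)‖ :=
        mul_le_mul_of_nonneg_right (le_max_left _ _) (norm_nonneg _)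
      calc ρ * ‖dbar u (ρ • z)‖ ≤ ρ * (C' * ‖u (ρ • z)‖) := by
            gcongr
            exact h3.trans h4
        _ = ρ * C' * ‖U z‖ := by rw [hUd]; ring
  have hε : 0 ≤ ρ * C' := by positivity
  by_cases hex : ∃ (m : ℕ) (a : E), a ≠ 0 ∧ (fun z => U z - z ^ m • a) =o[𝓝 0] (fun z => z ^ m)
  · right
    obtain ⟨m, a, ha, hm⟩ := hex
    have hρc : (ρ : ℂ) ≠ 0 := by exact_mod_cast hρ0.ne'
    refine ⟨m, ((ρ : ℂ) ^ m)⁻¹ • a, smul_ne_zero (inv_ne_zero (pow_ne_zero _ hρc)) ha, ?_⟩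
    have ht : Tendsto (fun z : ℂ => (ρ : ℂ)⁻¹ * z) (𝓝 0) (𝓝 0) := by
      have : Continuous (fun z : ℂ => (ρ : ℂ)⁻¹ * z) := by fun_prop
      simpa using this.tendsto 0
    have h1 := hm.comp_tendsto ht
    have h2 : ((fun z => U z - z ^ m • a) ∘ fun z : ℂ => (ρ : ℂ)⁻¹ * z) =
        fun z => u z - z ^ m • ((ρ : ℂ) ^ m)⁻¹ • a := by
      funext z
      simp only [Function.comp_apply, hUd]
      have e1 : ρ • ((ρ : ℂ)⁻¹ * z) = z := by
        rw [Complex.real_smul, mul_inv_cancel_left₀ hρc]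
      rw [e1, mul_pow, inv_pow, smul_smul, mul_comm (z ^ m)]
    rw [h2] at h1
    refine h1.trans_isBigO ?_
    have h3 : ((fun z : ℂ => z ^ m) ∘ fun z : ℂ => (ρ : ℂ)⁻¹ * z) =
        fun z => ((ρ : ℂ)⁻¹) ^ m * z ^ m := by
      funext z
      simp only [Function.comp_apply, mul_pow]
    rw [h3]
    exact isBigO_const_mul_self _ _ _
  · left
    have hall : ∀ k : ℕ, Tendsto (fun z => (z ^ k)⁻¹ • U z) (𝓝[≠] 0) (𝓝 0) :=
      fun k => (lead hε hUS hUc k).resolve_left hex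
    have hz := ucp hε hρs hUS hUc hall
    refine ⟨ρ, hρ0, fun z hz' => ?_⟩
    have h1 := hz (ρ⁻¹ • z) (by
      rw [mem_ball_zero_iff] at hz' ⊢
      rw [norm_smul, norm_inv, Real.norm_eq_abs, abs_of_pos hρ0]
      rwa [inv_mul_lt_iff₀ hρ0, mul_one])
    rw [hUd] at h1
    simp only at h1
    rwa [smul_smul, mul_inv_cancel₀ hρ0.ne', one_smul] at h1

end Vale.Agent.P247.H74.SP

namespace Vale.Agent.P247.H74

/-- the similarity principle -/
theorem SP : SP_statement := fun _ _ _ _ hR hu hu1 hC => SP.expansion hR hu hu1 hC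

end Vale.Agent.P247.H74
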